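import Vale.Agent.P091.Main

open Filter MeasureTheory AddCircle Asymptotics
open scoped Real

namespace Vale.Agent.Results.P091.SqrtLogDivergence

/-- If `φ(u) = o(u √(log u · log log log u))`, some function in `φ(L)` has almost everywhere
unboundedly divergent Fourier series. In particular this happens in `L √(log L)`. -/
theorem result [Fact (0 < 2 * π)] (φ : ℝ → ℝ) (hmono : MonotoneOn φ (Set.Ici 0))
    (hnn : ∀ u, 0 ≤ u → 0 ≤ φ u)
    (ho : φ =o[atTop] fun u =>
      u * Real.sqrt (Real.log u * Real.log (Real.log (Real.log u)))) :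
    ∃ f : AddCircle (2 * π) → ℂ, Integrable f (haarAddCircle (T := 2 * π)) ∧
      Integrable (fun x => φ ‖f x‖) (haarAddCircle (T := 2 * π)) ∧
      ∀ᵐ x ∂(haarAddCircle (T := 2 * π)), ¬ BddAbove (Set.range fun N : ℕ =>
        ‖∑ k ∈ Finset.Icc (-(N : ℤ)) N, fourierCoeff f k * fourier k x‖) :=
  Vale.Agent.P091.exists_divergent φ hmono hnn ho

end Vale.Agent.Results.P091.SqrtLogDivergence
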